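import Vale.Agent.P144E.Defs

/-!
Reentrant corners: monotonicity.
-/

namespace Vale.Agent.P144Z

open Finset

variable {M : ℕ} {I Tp : Finset (Tor M)}

theorem ConnB.mono' {z : Tor M} {s s' ρ ρ' : ℕ} (h : ConnB I z s ρ) (hs : s' ≤ s) (hρ : ρ ≤ ρ') :
    ConnB I z s' ρ' := fun f f' h1 h2 h3 h4 =>
  Relation.ReflTransGen.mono (fun _ _ k => ⟨k.1.trans hρ, k.2.1.trans hρ, k.2.2⟩) _ _
    (h f f' (h1.trans hs) (h2.trans hs) h3 h4)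

theorem ConnB.out' {z : Tor M} {s ρ : ℕ} (h : ConnB I z s ρ) {f f' : Tor M} (h1 : tdist f z ≤ s)
    (h2 : tdist f' z ≤ s) (h3 : f ∉ I) (h4 : f' ∉ I) : OutConn I f f' :=
  Relation.ReflTransGen.mono (fun _ _ k => k.2.2) _ _ (h f f' h1 h2 h3 h4)

theorem TrB.mono' {z : Tor M} {ρ ρ' N N' : ℕ} (h : TrB I z ρ N) (hρ : ρ' ≤ ρ) (hN : N ≤ N') :
    TrB I z ρ' N' := by
  obtain ⟨Hs, Vs, h1, h2, h3⟩ := h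
  exact ⟨Hs, Vs, fun x hx => h1 x (hx.trans hρ), fun t => (h2 t).trans hN,
    fun t => (h3 t).trans hN⟩

theorem Rgh.mono {N r r' : ℕ} (h : Rgh I N r) (hr : r' ≤ r) : Rgh I N r' :=
  ⟨fun y s hs => h.conn y s (hs.trans hr), fun f hf s hs => h.cork f hf s (hs.trans hr),
    fun y => (h.tr y).mono' hr le_rfl⟩

theorem ShapeW.mono [NeZero M] {α κ κ' : ℝ} {N r r' : ℕ} (h : ShapeW I Tp α κ N r) (hκ : κ ≤ κ')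
    (hr : r' ≤ r) : ShapeW I Tp α κ' N r' :=
  ⟨h.toRgh.mono hr, fun p hp p' hp' e => hr.trans_lt (h.sep p hp p' hp' e),
    fun y ρ h1 h2 => (h.far y ρ (h1.trans hr) h2).mono hκ le_rfl⟩

theorem TipS.mono {S₁ S₂ : Set (ℤ × ℤ)} {ν₁ ν₂ : ℂ} {α κ κ' : ℝ} (h : TipS S₁ S₂ ν₁ ν₂ α κ)
    (hκ : κ ≤ κ') : TipS S₁ S₂ ν₁ ν₂ α κ' :=
  ⟨h.n₁, h.n₂, h.add, h.sub, GeoA.epi_mono h.e₁ hκ, GeoA.epi_mono h.e₂ hκ, h.w₁, h.w₂⟩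

theorem TipZ.mono {Λ : Finset (ℤ × ℤ)} {α κ κ' : ℝ} {ρ ρ' : ℕ} {p : ℤ × ℤ} (h : TipZ Λ α κ ρ p)
    (hκ : κ ≤ κ') (hρ : ρ' ≤ ρ) : TipZ Λ α κ' ρ' p := by
  obtain ⟨S₁, S₂, ν₁, ν₂, h1, h2⟩ := h
  exact ⟨S₁, S₂, ν₁, ν₂, h1.mono hκ, fun v hv => h2 v (hv.trans hρ)⟩

theorem RawZ.mono {Λ P : Finset (ℤ × ℤ)} {α κ κ' : ℝ} {r r' : ℕ} (h : RawZ Λ P α κ r)
    (hκ : κ ≤ κ') (hr : r' ≤ r) : RawZ Λ P α κ' r' := by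
  refine ⟨fun p hp p' hp' e => hr.trans_lt (h.sep p hp p' hp' e),
    fun p hp => (h.tip p hp).mono hκ hr, fun z => ?_⟩
  rcases h.chart z with ⟨S₁, S₂, ν₁, ν₂, a1, a2, a3, a4, a5, a6⟩ | ⟨p, hp, ρ, a1, a2⟩
  · exact Or.inl ⟨S₁, S₂, ν₁, ν₂, a1, a2, a3, GeoA.epi_mono a4 hκ, GeoA.epi_mono a5 hκ,
      fun v hv => a6 v (hv.trans hr)⟩
  · exact Or.inr ⟨p, hp, ρ, by omega, a2.mono hκ le_rfl⟩

theorem mem_dig {Λ P : Finset (ℤ × ℤ)} {t : ℕ} {v : ℤ × ℤ} :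
    v ∈ dig Λ P t ↔ v ∈ Λ ∧ ∀ p ∈ P, t < zd v p := mem_filter

end Vale.Agent.P144Z
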