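import Vale.Agent.P144E.Stmt
import Vale.Agent.P144D.I.O.Defs2

/-!
Reentrant corners: definitions and the statements of the blocks.
-/

namespace Vale.Agent.P144Z

open Finset Matrix

/-! ### The boundary in the flow -/

section

variable {M : ℕ} [NeZero M]

/-- The version of `Bd` in which each point of rank one has its own constants. -/
structure BdW (A : Gauge M) (ℓ ℓ' m : ℕ) (c κ s : ℝ) (n₂ : ℕ) : Prop where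
  sch : ∀ z, (∃ f, tdist f z ≤ ℓ' ∧ |flux A f| ≠ 1) → RN.Shr A ℓ ℓ' z (c * √((ℓ : ℝ) / ℓ'))
  cov : ∀ z, ∃ (Z₁ : Finset (Tor M × ℝ × ℝ)) (Z₂ : Finset (Tor M)), Z₂.card ≤ n₂ ∧
    (∀ y ∈ Z₁, 0 < y.2.2 ∧ y.2.2 ≤ y.2.1 ∧ y.2.1 ≤ c ∧
      RkA A ℓ ℓ' ((m + 3) * ℓ) y.2.1 y.2.2 y.1) ∧ ∑ y ∈ Z₁, y.2.1 * y.2.2 ≤ s ∧
    ∀ x, tdist x z ≤ 3 * ℓ' → (∃ f, tdist f x ≤ 6 * ℓ ∧ |flux A f| ≠ 1) →
      RN.Shr A ℓ ℓ' x κ ∨ (∃ y ∈ Z₁, tdist x y.1 ≤ m * ℓ) ∨ ∃ y ∈ Z₂, tdist x y ≤ m * ℓ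

/-- The loss of contraction caused by the boundary. -/
noncomputable def bdlW (L m : ℕ) (c κ s : ℝ) (n₂ : ℕ) : ℝ :=
  (L : ℝ) ^ 2 * κ ^ 2 + (m + 1) ^ 2 * (s + n₂ * c ^ 2) / L

/-- The boundary is good at the steps below `J`; at the first step the loss is only bounded. -/
def BndW (A : Gauge M) (L J : ℕ) (ε : ℝ) : Prop :=
  ∃ c : ℝ, 1 ≤ c ∧ c ^ 2 ≤ ε * L ∧ ∀ j < J, ∃ (κ s : ℝ) (n₂ : ℕ), 0 < κ ∧ 8 * κ ≤ 1 ∧ 0 ≤ s ∧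
    bdlW L 8 c κ s n₂ ≤ (if j = 0 then (L : ℝ) ^ 2 else ε) ∧
    BdW A (sc L j) (L * sc L j) 8 c κ s n₂

end

/-- The class of fields with a good boundary. -/
def QW (L : ℕ) (ε : ℝ) : Cls := fun _ _ A J => BndW A L J ε

/-- The mean energy in the bulk hardly depends on the correction. -/
def EnQ (Q : Cls) (q : Par) (L : ℕ) (γ δ : ℝ) : Prop :=
  ∀ (N Λ : ℕ) (Γ : ℝ), 1 ≤ Γ → ∀ ε > 0, ∃ J₀ : ℕ, ∀ J ≥ J₀, ∀ (M : ℕ) [NeZero M] (P B : Gauge M)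
    (Δ Δ' : Cor M) (ι : Type) [Fintype ι] [DecidableEq ι] (y : ι → Tor M) (d : ι → Fin 2) (n : ℕ),
    DomQ Q P B y d n L J N Λ Γ → Δ.Ok → Δ.Sm q.R γ δ → Δ.Off P → Δ'.Ok → Δ'.Sm q.R γ δ →
    Δ'.Off P → ∀ k, sc L J * |enC q Δ P (y k) (d k) - enC q Δ' P (y k) (d k)| ≤ ε

/-- The main estimates hold for corrections a little larger than those of the regions. -/
def UnivQ (Q : Cls) (q : Par) (Zσ Zε : ℝ) (L : ℕ) : Prop :=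
  ∃ γ δ θ : ℝ, 0 < θ ∧ (∀ (M : ℕ) [NeZero M] (R : Reg M),
    (R.cor q).Ok ∧ (R.cor q).Off R.pw ∧ (R.cor q).Sm q.R γ δ) ∧
    MainQ Q q Zσ Zε L γ (δ + θ) ∧ EnQ Q q L γ (δ + θ)

/-- The nearest-neighbour model with a nominal range. -/
noncomputable def parR (R : ℕ) : Par := ⟨fun _ => 0, R, 0, tc, 1⟩

/-- The steps contract for the fields with a good boundary. -/
def StepW : Prop :=
  ∃ ε₀ > (0 : ℝ), ∀ ε > (0 : ℝ), ε ≤ ε₀ → ∃ L₀ : ℕ, ∀ L ≥ L₀, ∃ C : ℝ, 1 ≤ C ∧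
    (QW L ε).Ok L C √(ε * L)

/-- The mean energy, for every good class. -/
def EnGen : Prop :=
  ∃ L₀ : ℕ, ∀ L ≥ L₀, ∀ C₁ : ℝ, 1 ≤ C₁ → ∃ η₀ > 0, ∀ R : ℕ, ∃ δ₀ > 0, ∀ q : Par, q.R = R →
    Crit L q η₀ δ₀ → ∀ (Q : Cls) (c : ℝ), Q.Ok L C₁ c → EnQ Q q L η₀ δ₀

/-- Universality for every good class, with the constants of the plane. -/
def GenW : Prop :=
  ∃ L₀ : ℕ, ∀ L ≥ L₀, ∀ C₁ : ℝ, 1 ≤ C₁ →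
    (∀ (R : ℕ) (Q : Cls) (c : ℝ), Q.Ok L C₁ c → UnivQ Q (parR R) 1 1 L) ∧
    ∀ ε > 0, ∃ η₀ > 0, ∀ R : ℕ, ∃ δ₀ > 0, ∀ q : Par, q.R = R → Crit L q η₀ δ₀ →
      ∃ Zσ Zε : ℝ, |Zσ - 1| < ε ∧ |Zε - 1| < ε ∧ MainOK q Zσ Zε ∧
        ∀ (Q : Cls) (c : ℝ), Q.Ok L C₁ c → UnivQ Q q Zσ Zε L

/-! ### Geometry -/

/-- Rough boundaries: up to the scale `r` the outer faces are locally connected and thick, and the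
boundary layer has the trace property. -/
structure Rgh {M : ℕ} (I : Finset (Tor M)) (N r : ℕ) : Prop where
  conn : ∀ y s, N * (s + 1) ≤ r → ConnB I y s (N * (s + 1))
  cork : ∀ f, f ∉ I → ∀ s, N * (s + 1) ≤ r →
    ∃ x, tdist x f ≤ N * (s + 1) ∧ ∀ g, tdist g x ≤ s → g ∉ I
  tr : ∀ y, TrB I y r N

/-- Rough boundaries that have the shape `ShapeAt` away from the separated tips `Tp`. -/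
structure ShapeW {M : ℕ} (I Tp : Finset (Tor M)) (α κ : ℝ) (N r : ℕ) : Prop
    extends Rgh I N r where
  sep : ∀ p ∈ Tp, ∀ p' ∈ Tp, p ≠ p' → r < tdist p p'
  far : ∀ y ρ, ρ ≤ r → (∀ p ∈ Tp, N * (ρ + 1) ≤ tdist y p) → ShapeAt I α κ ρ y

/-- Two walls that cross near the origin. -/
structure TipS (S₁ S₂ : Set (ℤ × ℤ)) (ν₁ ν₂ : ℂ) (α κ : ℝ) : Prop where
  n₁ : ‖ν₁‖ = 1
  n₂ : ‖ν₂‖ = 1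
  add : α ≤ ‖ν₁ + ν₂‖
  sub : α ≤ ‖ν₁ - ν₂‖
  e₁ : Epi S₁ ν₁ κ
  e₂ : Epi S₂ ν₂ κ
  w₁ : (∃ f ∈ S₁, zd f 0 ≤ 2) ∧ ∃ f, f ∉ S₁ ∧ zd f 0 ≤ 2
  w₂ : (∃ f ∈ S₂, zd f 0 ≤ 2) ∧ ∃ f, f ∉ S₂ ∧ zd f 0 ≤ 2

/-- Within distance `ρ` of `p` the set is a reentrant corner with tip `p`. -/
def TipZ (Λ : Finset (ℤ × ℤ)) (α κ : ℝ) (ρ : ℕ) (p : ℤ × ℤ) : Prop :=
  ∃ S₁ S₂ ν₁ ν₂, TipS S₁ S₂ ν₁ ν₂ α κ ∧ ∀ v, zd v 0 ≤ ρ → (p + v ∈ Λ ↔ v ∈ S₁ ∨ v ∈ S₂)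

/-- The lattice version of `TameW`. -/
structure RawZ (Λ P : Finset (ℤ × ℤ)) (α κ : ℝ) (r : ℕ) : Prop where
  sep : ∀ p ∈ P, ∀ p' ∈ P, p ≠ p' → r < zd p p'
  tip : ∀ p ∈ P, TipZ Λ α κ r p
  chart : ∀ z : ℤ × ℤ, (∃ (S₁ S₂ : Set (ℤ × ℤ)) (ν₁ ν₂ : ℂ), ‖ν₁‖ = 1 ∧ ‖ν₂‖ = 1 ∧
    α ≤ ‖ν₁ + ν₂‖ ∧ Epi S₁ ν₁ κ ∧ Epi S₂ ν₂ κ ∧
      ∀ v : ℤ × ℤ, zd v 0 ≤ r → (z + v ∈ Λ ↔ v ∈ S₁ ∧ v ∈ S₂)) ∨
    ∃ p ∈ P, ∃ ρ, zd z p + r ≤ ρ ∧ TipZ Λ α κ ρ p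

/-- The squares of radius `t` around the points of `P` are removed. -/
def dig (Λ P : Finset (ℤ × ℤ)) (t : ℕ) : Finset (ℤ × ℤ) := Λ.filter fun v => ∀ p ∈ P, t < zd v p

/-- The union of two walls without the square of radius `t`. -/
def Dug (S₁ S₂ : Set (ℤ × ℤ)) (t : ℕ) : Set (ℤ × ℤ) := {v | (v ∈ S₁ ∨ v ∈ S₂) ∧ t < zd v 0}

/-- Away from the tip only one wall is seen. -/
def TipFar : Prop :=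
  ∀ α > (0 : ℝ), ∃ N : ℕ, ∃ κ₀ > (0 : ℝ), ∀ κ, 0 ≤ κ → κ ≤ κ₀ → ∀ S₁ S₂ ν₁ ν₂,
    TipS S₁ S₂ ν₁ ν₂ α κ → ∀ (y : ℤ × ℤ) (ρ : ℕ), N * (ρ + 1) ≤ zd y 0 →
      ∃ (S : Set (ℤ × ℤ)) (ν : ℂ), (ν = ν₁ ∨ ν = ν₂) ∧ Epi S ν κ ∧
        ∀ v, zd v 0 ≤ ρ → (y + v ∈ S₁ ∨ y + v ∈ S₂ ↔ v ∈ S)

/-- The outside of a dug tip is locally connected and thick. -/
def TipConn : Prop :=
  ∀ α > (0 : ℝ), ∃ t₀ : ℕ, ∃ κ₀ > (0 : ℝ), ∀ t ≥ t₀, ∃ N : ℕ, ∀ κ, 0 ≤ κ → κ ≤ κ₀ →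
    ∀ S₁ S₂ ν₁ ν₂, TipS S₁ S₂ ν₁ ν₂ α κ → (∃ v, zd v 0 ≤ t₀ ∧ v ∉ S₁ ∧ v ∉ S₂) ∧
      (∀ (f : ℤ × ℤ) (s : ℕ), f ∉ Dug S₁ S₂ t →
        ∃ x, zd x f ≤ N * (s + 1) ∧ ∀ g, zd g x ≤ s → g ∉ Dug S₁ S₂ t) ∧
      ∀ (y f f' : ℤ × ℤ) (s : ℕ), zd f y ≤ s → zd f' y ≤ s → f ∉ Dug S₁ S₂ t →
        f' ∉ Dug S₁ S₂ t → GeoA.Rch (fun v => v ∉ Dug S₁ S₂ t ∧ zd v y ≤ N * (s + 1)) f f'

/-- The dug sets have the shape `ShapeW`. -/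
def DigStmt : Prop :=
  ∀ α > (0 : ℝ), ∃ t N Q : ℕ, 1 ≤ t ∧ 1 ≤ Q ∧ ∃ κ₀ > (0 : ℝ), ∀ κ, 0 < κ → κ ≤ κ₀ →
    ∀ (Λ P : Finset (ℤ × ℤ)) (r T : ℕ), RawZ Λ P α κ r → Q ≤ r → (∀ v ∈ Λ, zd v 0 ≤ T) →
      (∀ p ∈ P, zd p 0 ≤ T + 2 ∧ ∃ v, v ∉ Λ ∧ zd v p ≤ t) ∧ ∀ (M : ℕ) [NeZero M],
        4 * (T + r) ≤ M → ShapeW ((dig Λ P t).image (prj M)) (P.image (prj M)) α κ N (r / Q)

/-- The discretisation of the domains. -/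
def RawStmt : Prop :=
  ∀ (α : ℝ) (D : Set ℂ), TameW α D → ∃ T > (0 : ℝ), ∀ κ > (0 : ℝ), ∃ ρ > (0 : ℝ), ∀ a > (0 : ℝ),
    (∀ x, x ∈ P144.disc D a ↔ (⟨a * x.1, a * x.2⟩ : ℂ) ∈ D) ∧
    (∀ x ∈ P144.disc D a, a * zd x 0 ≤ T) ∧
      ∀ r : ℕ, 1 ≤ r → a * r ≤ ρ → ∃ P, RawZ (P144.disc D a) P α κ r

/-- The strings have no flux near the boundary. -/
def FlatW : Prop :=
  ∀ (M : ℕ) [NeZero M] (R : Reg M) (B : Gauge M) (N r : ℕ), Rgh R.In N r → Str R.pw B r →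
    ∀ (z : Tor M) (d ρ : ℕ), NearB R.In d z → d + ρ + 2 * N + 4 ≤ r → Flat B z ρ

/-- Deep points of the outer components. -/
def HolesW : Prop :=
  ∀ N Λ₀ : ℕ, ∃ H₀ Q : ℕ, 1 ≤ Q ∧ ∀ (Λ : Finset (ℤ × ℤ)) (T r M : ℕ) [NeZero M],
    Rgh (Λ.image (prj M)) N r → Q ≤ r → r ≤ T → T ≤ Λ₀ * r → (∀ v ∈ Λ, zd v 0 ≤ T) → 8 * T ≤ M →
      ∃ H ≤ H₀, ∃ (a : ℤ × ℤ) (hs : Fin H → ℤ × ℤ), Holes Λ (2 * T) (r / Q) a hs ∧ UL.Cn M Λ a hs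

/-- The spectral gap; for the free boundary condition, modulo the corners of the fluxes. -/
def GapW : Prop :=
  ∀ N Λ : ℕ, ∃ Γ : ℝ, 1 ≤ Γ ∧ ∃ r₀ : ℕ, ∀ (M : ℕ) [NeZero M] (R : Reg M) (B : Gauge M) (T r : ℕ),
    Rgh R.In N r → Str R.pw B r → (∀ f ∈ R.In, tdist f 0 ≤ T) →
    (∀ e, T < tdist e.1 0 → B e = 1) → r₀ ≤ r → r ≤ T → T ≤ Λ * r → 32 * T ≤ M →
    ∀ (φ : Tor M × Fin 4 → ℝ) (t : Tor M → ℝ),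
      (R.fr = true → ∀ f, flux B f = -1 → cnr f ⬝ᵥ φ = 0) →
      (∀ f, t f ≠ 0 → R.fr = true ∧ flux B f = -1) →
        l2sq univ φ ≤ (Γ * T) ^ 2 * l2sq univ (Dm (R.pw * B) *ᵥ φ - ∑ f, t f • cnr f)

/-- The gap without strings and the bound on the last integration. -/
def KStmtW : Prop :=
  ∀ N n Λ₀ : ℕ, ∃ C Γ h : ℝ, 0 ≤ C ∧ 1 ≤ Γ ∧ 0 < h ∧ ∃ r₀ : ℕ, ∀ (M : ℕ) [NeZero M]
    (Λ : Finset (ℤ × ℤ)) (fr : Bool) (T r ℓ H : ℕ) (x : Fin n → ℤ × ℤ) (a : ℤ × ℤ)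
    (hs : Fin H → ℤ × ℤ) (S : Finset (Fin H)), Rgh (regOf M Λ fr).In N r → Holes Λ T r a hs →
    Spins Λ r x → (fr = true → H = 0 ∧ Even n) → r₀ ≤ r → 8 ≤ ℓ → ℓ ≤ r → r ≤ T → T ≤ Λ₀ * ℓ →
    64 * T ≤ M →
      (∀ φ, φ ⬝ᵥ φ ≤ (Γ * ℓ) ^ 2 *
        ((Dm (regOf M Λ fr).pw *ᵥ φ) ⬝ᵥ (Dm (regOf M Λ fr).pw *ᵥ φ))) ∧
      ∀ (ι : Type) [Fintype ι] [DecidableEq ι] (y : ι → Tor M) (d : ι → Fin 2) (J : ℕ),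
        (geoD M ((regOf M Λ fr).pw * (spinG M a x * holeG M a hs S)) y d J).LastB ℓ h
          (C * (ℓ : ℝ) ^ (-((n : ℝ) / 8)) * |Zw par0 (regOf M Λ fr).pw 1|)

/-! ### Analysis -/

/-- Hölder decay of a pair at a thick outer part. -/
def HolS : Prop :=
  ∀ N : ℕ, ∃ C β : ℝ, 1 ≤ C ∧ 0 < β ∧ β ≤ 1 / 2 ∧ ∀ (ρ : ℕ) (u w : ℤ × ℤ → ℝ)
    (pr : ℤ × ℤ → Fin 4 → Prop) (out : ℤ × ℤ → Prop), IsPair ρ u w pr out → ∀ S : ℝ,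
    (∀ s, N * (s + 1) ≤ ρ →
      ∃ x, zd x 0 ≤ N * (s + 1) ∧ ∀ v, zd v x ≤ s → out v ∧ ∀ a, ¬ pr v a) →
    (∀ v, zd v 0 ≤ ρ → |u v| ≤ S ∧ |w v| ≤ S) → ∀ s : ℕ, 1 ≤ s → ∀ v, zd v 0 ≤ s → s ≤ ρ →
      |u v| ≤ C * S * ((s : ℝ) / ρ) ^ β ∧ |w v| ≤ C * S * ((s : ℝ) / ρ) ^ β

/-- Hölder decay of the homogeneous solutions between the scales `s₀` and `ρ₀`. -/
def HomDecH {M : ℕ} [NeZero M] (A : Gauge M) (z : Tor M) (s₀ ρ₀ : ℕ) (c β : ℝ) : Prop :=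
  ∀ s ρ : ℕ, s₀ ≤ s → s ≤ ρ → ρ ≤ ρ₀ → ∀ φ, Hom A z ρ φ →
    l2sq (ball z s) φ ≤ c ^ 2 * ((s : ℝ) / ρ) ^ (1 + β) * l2sq (ball z ρ) φ

/-- Decay and solvability at a rough boundary. -/
def DecH : Prop :=
  ∀ N : ℕ, ∃ c β : ℝ, 1 ≤ c ∧ 0 < β ∧ β ≤ 1 / 2 ∧ ∃ Q : ℕ, ∀ (M : ℕ) [NeZero M] (R : Reg M)
    (B : Gauge M) (r : ℕ) (b : Tor M), IsSign B → Rgh R.In N r → 4 * r ≤ M → b ∉ R.In →
    ∀ ρ : ℕ, Q * (ρ + 1) ≤ r → Flat B b (2 * ρ) →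
      HomDecH (R.pw * B) b 8 ρ c β ∧ Solv (R.pw * B) b 8 ρ c

/-- From the homogeneous to the inhomogeneous decay. -/
def TeleH : Prop :=
  ∀ c β : ℝ, 1 ≤ c → 0 < β → β ≤ 1 / 2 → ∃ c' : ℝ, 1 ≤ c' ∧ ∀ (M : ℕ) [NeZero M] (A : Gauge M)
    (z : Tor M) (s₀ ρ : ℕ), 1 ≤ s₀ → HomDecH A z s₀ ρ c β → Solv A z s₀ ρ c → ∀ s : ℕ, s₀ ≤ s →
    s ≤ ρ → ∀ w, l2sq (ball z s) w ≤ c' ^ 2 * ((s : ℝ) / ρ) ^ (1 + β) * hsq A ρ (ball z ρ) w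

/-- Change of scale up to a rough boundary. -/
def ShrH : Prop :=
  ∀ N : ℕ, ∃ c β : ℝ, 1 ≤ c ∧ 0 < β ∧ β ≤ 1 / 2 ∧ ∃ Q : ℕ, ∀ (M : ℕ) [NeZero M] (R : Reg M)
    (B : Gauge M) (r : ℕ), Rgh R.In N r → Str R.pw B r → 4 * r ≤ M → ∀ ℓ ℓ' : ℕ, 1 ≤ ℓ →
    ℓ ≤ ℓ' → Q * ℓ' ≤ r → ∀ z, (∃ f, f ∉ R.In ∧ tdist f z ≤ ℓ' + 1) → ∀ w,
      hsq (R.pw * B) ℓ (ball z (2 * ℓ)) w ≤
        c ^ 2 * ((ℓ : ℝ) / ℓ') ^ (1 + β) * hsq (R.pw * B) ℓ' (ball z (2 * ℓ')) w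

/-- The covering of the boundary at the intermediate scale `a ℓ`, away from the tips. -/
def LevS : Prop :=
  ∀ α > (0 : ℝ), ∀ N : ℕ, ∃ c : ℝ, 1 ≤ c ∧ ∃ n₁ N' : ℕ, ∀ η > (0 : ℝ), η ≤ 1 → ∃ n₂ a₀ : ℕ,
    ∀ a ≥ a₀, ∃ κ > (0 : ℝ), ∀ (M : ℕ) [NeZero M] (R : Reg M) (Tp : Finset (Tor M)) (B : Gauge M)
    (r ℓ : ℕ), ShapeW R.In Tp α κ N r → Str R.pw B r → 4 * r ≤ M → a ≤ ℓ → N' * (a * ℓ) ≤ r →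
    ∀ z, (∀ p ∈ Tp, N' * (a * ℓ) ≤ tdist z p) → ∃ Z₁ Z₂ : Finset (Tor M), Z₁.card ≤ n₁ * a ∧
      Z₂.card ≤ n₂ ∧ (∀ b ∈ Z₁, NearB R.In 1 b ∧ RkA (R.pw * B) ℓ (a * ℓ) (11 * ℓ) c η b) ∧
      ∀ x, tdist x z ≤ a * ℓ → NearB R.In 1 x → ∃ y ∈ Z₁ ∪ Z₂, tdist x y ≤ ℓ

/-- The boundary estimates. -/
def BdStmtW : Prop :=
  ∀ α > (0 : ℝ), ∀ N : ℕ, ∃ Q : ℕ, ∀ ε > (0 : ℝ), ∃ L₀ : ℕ, ∀ L ≥ L₀, ∃ κ > (0 : ℝ),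
    ∀ (M : ℕ) [NeZero M] (R : Reg M) (Tp : Finset (Tor M)) (B : Gauge M) (r J : ℕ),
    ShapeW R.In Tp α κ N r → Str R.pw B r → 4 * r ≤ M → 1 ≤ J → Q * sc L J ≤ r →
      BndW (R.pw * B) L J ε

/-! ### The lattice -/

/-- The observable `O p` only depends on the edges near `p`. -/
def LocE {M : ℕ} [NeZero M] (P : Finset (ℤ × ℤ)) (K : ℕ)
    (O : ℤ × ℤ → (Tor M × Fin 2 → Bool) → ℝ) : Prop :=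
  ∀ p ∈ P, ∀ n n', (∀ e : Tor M × Fin 2, e.1 ∈ ball (prj M p) K →
    e.1 + uv M e.2 ∈ ball (prj M p) K → n e = n' e) → O p n = O p n'

/-- The Gibbs measure of a set in terms of the contours of the dug set. -/
def SpStmt : Prop :=
  ∀ R₁ t : ℕ, ∃ C : ℝ, 1 ≤ C ∧ ∀ (J lam β : ℝ) (q : Par), UL.Rel J lam β q →
    (∀ B, q.V B ≠ 0 → (0, 0) ∈ B → B ∈ potSets R₁) → 1 / 4 ≤ q.x → q.x ≤ 1 / 2 → q.Small 1 →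
    ∀ (M : ℕ) [NeZero M] (Λ P : Finset (ℤ × ℤ)) (fr : Bool) (T r H : ℕ) (a : ℤ × ℤ)
    (hs : Fin H → ℤ × ℤ), Holes (dig Λ P t) T r a hs → (fr = false → UL.Cn M (dig Λ P t) a hs) →
    (fr = true → H = 0) → (∀ p ∈ P, zd p 0 ≤ T) →
    (∀ p ∈ P, ∀ p' ∈ P, p ≠ p' → 2 * (t + R₁ + 2) < zd p p') → 4 * (T + t + R₁ + q.R + 4) ≤ M →
    ∃ O : ℤ × ℤ → (Tor M × Fin 2 → Bool) → ℝ, LocE P (t + R₁ + 2) O ∧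
      (∀ p n, C⁻¹ ≤ O p n ∧ O p n ≤ C) ∧
      ∀ (F : P144.Config → ℝ) (Φ : (Tor M × Fin 2 → Bool) → ℝ),
        (∀ σ σ', (∀ x ∈ dig Λ P t, σ x = σ' x) → F σ = F σ') →
        (∀ s : Tor M → Bool, (fr = false → s (prj M a) = true) → F (per M s) = Φ (dom s)) →
        (fr = true → BoxLoc (T + 1) Φ) →
        P144.gibbs J lam q.V β (if fr then none else some fun _ => true) Λ F =
          secE q (regOf M (dig Λ P t) fr) a hs (fun n => Φ n * ∏ p ∈ P, O p n) /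
            secE q (regOf M (dig Λ P t) fr) a hs fun n => ∏ p ∈ P, O p n

open P144 in
/-- Universality for finite sets of sites with free or plus boundary condition. -/
def LatOKW (q : Par) (Zσ Zε α κ : ℝ) : Prop :=
  ∀ J lam β : ℝ, 0 < J → q.μ = β * lam → q.x = Real.exp (-(2 * β * J)) → ∀ n m Λ₀ : ℕ, ∀ ε > 0,
    ∃ r₀ : ℕ, ∀ r ≥ r₀, ∀ (Λ P : Finset Site) (b : Option Config) (x : Fin n → Site)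
      (y : Fin m → Site) (j : Fin m → Fin 2), (b = none ∨ b = some fun _ => true) →
      RawZ Λ P α κ r → (∀ v ∈ Λ, zd v 0 ≤ Λ₀ * r) → Spins Λ r (Sum.elim x y) →
        |lcor (gibbs J lam q.V β b Λ) x y j -
          Zσ ^ n * Zε ^ m * lcor (gibbs J 0 (fun _ => 0) (Kc / J) b Λ) x y j| ≤
          ε * (r : ℝ) ^ (-((n : ℝ) / 8)) / (r : ℝ) ^ m

/-- A product of local observables is a combination of small corrections. -/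
def TiltStmt : Prop :=
  ∀ (C θ : ℝ) (k₀ : ℕ), 1 ≤ C → 0 < θ → ∃ B : ℝ, ∀ q : Par, 0 < q.x → ∀ (M : ℕ) [NeZero M]
    (Λ P : Finset (ℤ × ℤ)) (fr : Bool) (T K : ℕ) (O : ℤ × ℤ → (Tor M × Fin 2 → Bool) → ℝ)
    (γ δ : ℝ), (∀ v ∈ Λ, zd v 0 ≤ T) → (∀ p ∈ P, zd p 0 ≤ T ∧ ∀ v, zd v p ≤ 1 → v ∉ Λ) →
    (∀ p ∈ P, ∀ p' ∈ P, p ≠ p' → 2 * K < zd p p') → P.card ≤ k₀ → K ≤ q.R + 1 →
    4 * (T + K + q.R + 2) ≤ M → LocE P K O → (∀ p n, C⁻¹ ≤ O p n ∧ O p n ≤ C) →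
    ((regOf M Λ fr).cor q).Ok → ((regOf M Λ fr).cor q).Off (regOf M Λ fr).pw →
    ((regOf M Λ fr).cor q).Sm q.R γ δ →
    ∃ (u : Finset (ℤ × ℤ) → Cor M) (c : Finset (ℤ × ℤ) → ℝ),
      (∀ U, (u U).Ok ∧ (u U).Off (regOf M Λ fr).pw ∧ (u U).Sm q.R γ (δ + θ) ∧
        ZwC q (u U) (regOf M Λ fr).pw 1 ≠ 0) ∧ ∑ U ∈ P.powerset, |c U| ≤ B ∧
      1 ≤ B * ∑ U ∈ P.powerset, c U ∧ ∀ (A : Gauge M) (Φ : (Tor M × Fin 2 → Bool) → ℝ),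
        ZwC q ((regOf M Λ fr).cor q) A (fun n => Φ n * ∏ p ∈ P, O p n) /
            ZwC q ((regOf M Λ fr).cor q) (regOf M Λ fr).pw 1 =
          ∑ U ∈ P.powerset, c U * (ZwC q (u U) A Φ / ZwC q (u U) (regOf M Λ fr).pw 1)

section

open UL

variable {M : ℕ} [NeZero M] {H m n : ℕ}

/-- The sum of the mixed correlations over the sectors, with the correction `u`. -/
noncomputable def mxU (q : Par) (u : Cor M) (R : Reg M) (a : ℤ × ℤ) (hs : Fin H → ℤ × ℤ)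
    (y : Fin m → ℤ × ℤ) (j : Fin m → Fin 2) (x : Fin n → ℤ × ℤ) (t : Finset (Fin m)) : ℝ :=
  ∑ S, mixC q u R.pw (spinG M a x * holeG M a hs S) (fun k : t => yE M y j k)
    fun k : t => dE y j k

/-- The main estimates for the sums over the sectors at the scale `ℓ`. -/
def CoreAt (q : Par) (Zσ Zε γ δ : ℝ) (R : Reg M) (a : ℤ × ℤ) (hs : Fin H → ℤ × ℤ)
    (y : Fin m → ℤ × ℤ) (j : Fin m → Fin 2) (x : Fin n → ℤ × ℤ) (ℓ B ε : ℝ) : Prop :=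
  ∀ u : Cor M, u.Ok → u.Off R.pw → u.Sm q.R γ δ →
    (∀ t : Finset (Fin m), |ℓ ^ ((n : ℝ) / 8) * ℓ ^ t.card * mxU q u R a hs y j x t -
      Zσ ^ n * ℓ ^ ((n : ℝ) / 8) * (Zε * ℓ) ^ t.card * mx par0 R a hs y j x t| ≤ ε ∧
      |ℓ ^ ((n : ℝ) / 8) * ℓ ^ t.card * mx par0 R a hs y j x t| ≤ B) ∧
    ∀ u' : Cor M, u'.Ok → u'.Off R.pw → u'.Sm q.R γ δ → ∀ k,
      ℓ * |enC q u R.pw (yE M y j k) (dE y j k) - enC q u' R.pw (yE M y j k) (dE y j k)| ≤ ε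

end

open UL P144 in
/-- The correlations of a set in terms of the nearest-neighbour model on the dug set. -/
def HalfStmt : Prop :=
  ∀ (R₁ t n m k₀ : ℕ) (B θ Zσ Zε ε : ℝ), 1 ≤ t → 0 < θ → 0 < ε → ∃ ε' > (0 : ℝ),
    ∀ (J lam β : ℝ) (q : Par) (γ δ : ℝ), 0 < J → UL.Rel J lam β q →
    (∀ B, q.V B ≠ 0 → (0, 0) ∈ B → B ∈ potSets R₁) → 1 / 4 ≤ q.x → q.x ≤ 1 / 2 → q.Small 1 →
    t + R₁ + 1 ≤ q.R → ∀ (M : ℕ) [NeZero M] (Λ P : Finset Site) (fr : Bool) (T r H : ℕ) (a : Site)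
    (hs : Fin H → Site) (x : Fin n → Site) (y : Fin m → Site) (j : Fin m → Fin 2) (ℓ : ℝ),
    Holes (dig Λ P t) T r a hs → (fr = false → Cn M (dig Λ P t) a hs) →
    (fr = true → H = 0 ∧ Even n) → (∀ p ∈ P, zd p 0 ≤ T) →
    (∀ p ∈ P, ∀ p' ∈ P, p ≠ p' → 2 * (t + R₁ + 2) < zd p p') → P.card ≤ k₀ →
    4 * (T + t + R₁ + q.R + 4) ≤ M → (∀ i, x i ∈ dig Λ P t) →
    (∀ k, y k ∈ dig Λ P t ∧ y k + dir (j k) ∈ dig Λ P t) → 0 < ℓ →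
    ((regOf M (dig Λ P t) fr).cor q).Ok →
    ((regOf M (dig Λ P t) fr).cor q).Off (regOf M (dig Λ P t) fr).pw →
    ((regOf M (dig Λ P t) fr).cor q).Sm q.R γ δ →
    CoreAt q Zσ Zε γ (δ + θ) (regOf M (dig Λ P t) fr) a hs y j x ℓ B ε' →
    CoreAt q Zσ Zε γ (δ + θ) (regOf M (dig Λ P t) fr) a hs y j Fin.elim0 ℓ B ε' →
      ℓ ^ ((n : ℝ) / 8) * ℓ ^ m *
        |lcor (gibbs J lam q.V β (if fr then none else some fun _ => true) Λ) x y j -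
          Zσ ^ n * Zε ^ m * UL.psi (mx par0 (regOf M (dig Λ P t) fr) a hs y j Fin.elim0 ∅)
            (fun k => mx par0 (regOf M (dig Λ P t) fr) a hs y j Fin.elim0 {k})
            (mx par0 (regOf M (dig Λ P t) fr) a hs y j x)| ≤ ε

/-- Universality on the lattice. -/
def LatStmtW : Prop :=
  ∀ α > (0 : ℝ), ∃ t₀ : ℕ, ∀ ε₀ > (0 : ℝ), ∃ L₀ : ℕ, ∀ L ≥ L₀, ∃ κ > (0 : ℝ),
    ∀ (q : Par) (Zσ Zε : ℝ) (R₁ : ℕ), q.Ok → q.Small 1 → R₁ + t₀ ≤ q.R →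
    (∀ B, q.V B ≠ 0 → (0, 0) ∈ B → B ∈ potSets R₁) → UnivQ (QW L ε₀) q Zσ Zε L →
    UnivQ (QW L ε₀) (parR t₀) 1 1 L → LatOKW q Zσ Zε α κ

open P144 in
/-- Q1 in the plane and in the domains of the class `TameW α`, with the same constants. -/
def DomQW : Prop :=
  ∀ α > 0, ∀ J > 0, ∀ V, IsPotential V → ∀ ε > 0, ∃ lam₀ > 0, ∀ lam : ℝ, |lam| < lam₀ →
    ∃ β > 0, ∃ Zσ Zε : ℝ, |β - Kc / J| < ε ∧ |Zσ - 1| < ε ∧ |Zε - 1| < ε ∧ Zσ ≠ 0 ∧ Zε ≠ 0 ∧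
      (∃ μ, IsPlaneState J lam V β μ ∧ IsTorusState J lam V β μ ∧
        ∀ E₀, PlaneFam J 0 (fun _ => 0) (Kc / J) E₀ →
          Diff Set.univ E₀ (famOf μ) Zσ Zε ∧ Identity Set.univ E₀ (famOf μ) Zσ Zε) ∧
      ∀ D, TameW α D → ∀ b, StdBC b → Diff D (crit J D b) (inDom J lam V β D b) Zσ Zε ∧
        Identity D (crit J D b) (inDom J lam V β D b) Zσ Zε

end Vale.Agent.P144Z
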