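import Vale.Agent.P144E.An1.Hol
import Vale.Agent.P144E.An2.Dec
import Vale.Agent.P144E.An3.Shr
import Vale.Agent.P144E.An4a.Lev
import Vale.Agent.P144E.An4b.Main
import Vale.Agent.P144E.Ge1a.Main
import Vale.Agent.P144E.Ge1b.Gap
import Vale.Agent.P144E.Ge1b.K
import Vale.Agent.P144E.Ge2.Conn
import Vale.Agent.P144E.Ge3.Dig
import Vale.Agent.P144E.Ge4.Main
import Vale.Agent.P144E.Ge5.B
import Vale.Agent.P144E.Sp.Main
import Vale.Agent.P144E.Tilt.Half
import Vale.Agent.P144E.Lat.Main
import Vale.Agent.P144E.Lat.Dom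
import Vale.Agent.P144E.Rg.Step
import Vale.Agent.P144E.Rg.Gen

/-!
Reentrant corners: the blocks are put together.
-/

namespace Vale.Agent.P144Z

theorem decH : DecH := decH_of holS

theorem shrH : ShrH := shrH_of decH teleH flatW

theorem levS : LevS := levS_of flatW

theorem bdStmtW : BdStmtW := bdStmtW_of levS shrH

theorem kStmtW : KStmtW := kStmtW_of gapW

theorem digStmt : DigStmt := digStmt_of tipFar tipConn

theorem halfStmt : HalfStmt := halfStmt_of spStmt tiltStmt

theorem latStmtW : LatStmtW := latStmtW_of bdStmtW kStmtW holesW digStmt halfStmt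

theorem domQW : DomQW := domQW_of stepW genW latStmtW rawStmt

end Vale.Agent.P144Z
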