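import Vale.Agent.P144D.Tame

/-!
Domains with reentrant corners.
-/

namespace Vale.Agent.P144Z

open Metric

/-- Near `z`, at small scales, `D` is the intersection of two regions above graphs of arbitrarily
small slope, or the union of two such regions whose boundaries cross at `z`; the normals are not
closer than `α` to being opposite, and in the second case not closer than `α` to each other. -/
def Corner (α : ℝ) (D : Set ℂ) (z : ℂ) : Prop :=
  ∀ κ > (0 : ℝ), ∃ r > (0 : ℝ), ∃ (S₁ S₂ : Set ℂ) (ν₁ ν₂ : ℂ), ‖ν₁‖ = 1 ∧ ‖ν₂‖ = 1 ∧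
    α ≤ ‖ν₁ + ν₂‖ ∧ Cone S₁ ν₁ κ ∧ Cone S₂ ν₂ κ ∧ (D ∩ ball z r = S₁ ∩ S₂ ∩ ball z r ∨
      α ≤ ‖ν₁ - ν₂‖ ∧ z ∈ frontier S₁ ∧ z ∈ frontier S₂ ∧ D ∩ ball z r = (S₁ ∪ S₂) ∩ ball z r)

/-- Bounded open sets with convex and reentrant corners. -/
def TameW (α : ℝ) (D : Set ℂ) : Prop :=
  IsOpen D ∧ Bornology.IsBounded D ∧ ∀ z, Corner α D z

/-- Bounded open sets with piecewise continuously differentiable boundary: near each boundary point
the set is `{F > 0}`, `{F > 0 and G > 0}` or `{F > 0 or G > 0}`, where `F` and `G` vanish at the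
point and have independent differentials. -/
def IsPC1 (D : Set ℂ) : Prop :=
  IsOpen D ∧ Bornology.IsBounded D ∧ ∀ z ∈ frontier D, ∃ F G : ℂ → ℝ, ContDiff ℝ 1 F ∧
    ContDiff ℝ 1 G ∧ F z = 0 ∧ G z = 0 ∧
    (∀ s t : ℝ, s • fderiv ℝ F z + t • fderiv ℝ G z = 0 → s = 0 ∧ t = 0) ∧ ∃ r > (0 : ℝ),
      D ∩ ball z r = {w | 0 < F w} ∩ ball z r ∨
      D ∩ ball z r = {w | 0 < F w ∧ 0 < G w} ∩ ball z r ∨
      D ∩ ball z r = {w | 0 < F w ∨ 0 < G w} ∩ ball z r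

end Vale.Agent.P144Z
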